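import Vale.Agent.P254.K468.Cone

/-!
P254, block (K), continued: covariance matrix and entropy of the cone measure, and the
implication `D(cone) ≥ 0 ⟹ L_K ≤ L_Δ`.
-/

open MeasureTheory Set Matrix
open scoped Pointwise ENNReal

namespace Vale.Agent.P254.K468

variable {n : ℕ} {K : Set (Fin n → ℝ)}

lemma massF_cone (hK : IsCompact K) :
    massF (coneF K) = (n.factorial : ℝ) * (volume K).toReal := mom0 hK

lemma mean_cone_zero (hK : IsCompact K) (hV : (volume K).toReal ≠ 0) :
    meanF (coneF K) 0 = (n : ℝ) + 1 := by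
  rw [meanF, mom_t hK, massF_cone hK, Nat.factorial_succ]
  push_cast
  have : (n.factorial : ℝ) ≠ 0 := by positivity
  field_simp

lemma mean_cone_succ (hK : IsCompact K) (hV : (volume K).toReal ≠ 0) (i : Fin n) :
    meanF (coneF K) i.succ = ((n : ℝ) + 1) * centroid K i := by
  rw [meanF, mom_x hK, massF_cone hK, Nat.factorial_succ, centroid]
  push_cast
  have : (n.factorial : ℝ) ≠ 0 := by positivity
  field_simp

lemma massF_cone_ne (hK : IsCompact K) (hV : (volume K).toReal ≠ 0) :
    massF (coneF K) ≠ 0 := by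
  rw [massF_cone hK]
  exact mul_ne_zero (by positivity) hV

lemma fac2 (n : ℕ) : ((n + 2).factorial : ℝ) = ((n : ℝ) + 2) * ((n : ℝ) + 1) * n.factorial := by
  rw [Nat.factorial_succ, Nat.factorial_succ]
  push_cast
  ring

lemma cov_cone_zz (hK : IsCompact K) (hV : (volume K).toReal ≠ 0) :
    covF (coneF K) 0 0 = (n : ℝ) + 1 := by
  rw [covF_cone hK 0 0 (massF_cone_ne hK hV), mean_cone_zero hK hV, mom_tt hK, massF_cone hK,
    fac2]
  have : (n.factorial : ℝ) ≠ 0 := by positivity
  field_simp
  ring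

lemma cov_cone_zs (hK : IsCompact K) (hV : (volume K).toReal ≠ 0) (i : Fin n) :
    covF (coneF K) 0 i.succ = ((n : ℝ) + 1) * centroid K i := by
  rw [covF_cone hK 0 _ (massF_cone_ne hK hV), mean_cone_zero hK hV, mean_cone_succ hK hV,
    mom_tx hK, massF_cone hK, fac2, centroid]
  have : (n.factorial : ℝ) ≠ 0 := by positivity
  field_simp
  ring

lemma covF_symm (f : (Fin n → ℝ) → ℝ) (i j : Fin n) : covF f i j = covF f j i := by
  simp only [covF]
  congr 1
  refine integral_congr_ae (Filter.Eventually.of_forall (fun x => ?_))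
  simp only
  ring

lemma cov_cone_ss (hK : IsCompact K) (hV : (volume K).toReal ≠ 0) (i j : Fin n) :
    covF (coneF K) i.succ j.succ = ((n : ℝ) + 1) * (n + 2) * covMatrix K i j
      + ((n : ℝ) + 1) * centroid K i * centroid K j := by
  rw [covF_cone hK _ _ (massF_cone_ne hK hV), mean_cone_succ hK hV, mean_cone_succ hK hV,
    mom_xx hK, massF_cone hK, fac2, cov_eq hK hV]
  have : (n.factorial : ℝ) ≠ 0 := by positivity
  field_simp
  ring

/-- determinant of the covariance matrix of the cone measure -/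
lemma det_cov_cone (hK : IsCompact K) (hV : (volume K).toReal ≠ 0) :
    (covF (coneF K)).det = ((n : ℝ) + 1) * ((((n : ℝ) + 1) * (n + 2)) ^ n * (covMatrix K).det) := by
  set C' : Matrix (Fin (n + 1)) (Fin (n + 1)) ℝ :=
    fun i j => covF (coneF K) i j - (Fin.cons 0 (centroid K) : Fin (n + 1) → ℝ) i
      * covF (coneF K) 0 j with hC'
  have h1 : (covF (coneF K)).det = C'.det := by
    refine det_eq_of_forall_row_eq_smul_add_const (Fin.cons 0 (centroid K)) 0 (by simp) ?_
    intro i j
    simp only [hC', Fin.cons_zero, zero_mul, sub_zero]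
    ring
  have hz : ∀ i : Fin n, C' i.succ 0 = 0 := by
    intro i
    simp only [hC', Fin.cons_succ]
    rw [covF_symm, cov_cone_zs hK hV, cov_cone_zz hK hV]
    ring
  have hs : C'.submatrix (Fin.succAbove 0) Fin.succ
      = (((n : ℝ) + 1) * (n + 2)) • covMatrix K := by
    ext i j
    rw [submatrix_apply, Matrix.smul_apply, smul_eq_mul, Fin.succAbove_zero]
    simp only [hC', Fin.cons_succ]
    rw [cov_cone_ss hK hV, cov_cone_zs hK hV]
    ring
  have h0 : C' 0 0 = (n : ℝ) + 1 := by
    simp only [hC', Fin.cons_zero, zero_mul, sub_zero]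
    exact cov_cone_zz hK hV
  rw [h1, det_succ_column_zero, Fin.sum_univ_succ, hs, h0]
  simp only [hz]
  rw [det_smul]
  simp

/-- entropy of the cone measure -/
lemma ent_cone (hK : IsCompact K) (hV : 0 < (volume K).toReal) :
    entF (coneF K) = ((n : ℝ) + 1) + Real.log ((n.factorial : ℝ) * (volume K).toReal) := by
  have hZ : 0 < massF (coneF K) := by
    rw [massF_cone hK]; positivity
  have e : ∀ y : Fin (n + 1) → ℝ, (coneF K y / massF (coneF K)) *
      Real.log (coneF K y / massF (coneF K)) =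
      -((massF (coneF K))⁻¹ * (y 0 * coneF K y)
        + (massF (coneF K))⁻¹ * Real.log (massF (coneF K)) * coneF K y) := by
    intro y
    have hc : coneF K y = (coneS K).indicator (fun y => Real.exp (-(y 0))) y := by
      rw [coneF_eq]
    rw [hc]
    by_cases hy : y ∈ coneS K
    · rw [indicator_of_mem hy, Real.log_div (Real.exp_pos _).ne' hZ.ne', Real.log_exp]
      ring
    · rw [indicator_of_notMem hy]
      simp
  unfold entF
  simp_rw [e]
  rw [integral_neg, integral_add ((int1 hK 0).const_mul _) ((int0 hK).const_mul _),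
    integral_const_mul, integral_const_mul, neg_neg]
  have e1 : (massF (coneF K))⁻¹ * ∫ y, y 0 * coneF K y = (n : ℝ) + 1 := by
    rw [← mean_cone_zero hK hV.ne', meanF, div_eq_inv_mul]
  have e2 : ∫ y, coneF K y = massF (coneF K) := rfl
  rw [e1, e2, massF_cone hK]
  rw [massF_cone hK] at hZ
  field_simp

lemma det_Bmat (n : ℕ) :
    (Bmat n).det = ((n : ℝ) + 1) * (((n : ℝ) + 1) * (n + 2)) ^ n := by
  have e : Bmat n = (((n : ℝ) + 1) * (n + 2)) •
      (1 + vecMulVec (fun _ : Fin n => (1 : ℝ)) (fun _ => 1)) := by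
    ext i j
    rw [Matrix.smul_apply, Matrix.add_apply, Matrix.one_apply, vecMulVec_apply, smul_eq_mul, Bmat]
    split_ifs <;> ring
  rw [e, det_smul, det_rank_one]
  simp
  ring

/-- value of `det Σ / |Δ|²` for the simplex -/
lemma ratio_stdS (n : ℕ) : (covMatrix (stdS n)).det / (volume (stdS n)).toReal ^ 2 =
    (n.factorial : ℝ) ^ 2 / (((n : ℝ) + 1) * (((n : ℝ) + 1) * (n + 2)) ^ n) := by
  have h1 := det_B_mul_det_cov (n := n)
  rw [det_Bmat] at h1
  have hp : (0 : ℝ) < ((n : ℝ) + 1) * (((n : ℝ) + 1) * (n + 2)) ^ n := by positivity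
  have h2 : (covMatrix (stdS n)).det = (((n : ℝ) + 1) * (((n : ℝ) + 1) * (n + 2)) ^ n)⁻¹ :=
    eq_inv_of_mul_eq_one_right h1
  rw [h2, volume_stdS]
  have : (n.factorial : ℝ) ≠ 0 := by positivity
  field_simp

lemma volume_pos_of_body (hK : IsConvexBody K) : 0 < (volume K).toReal := by
  obtain ⟨-, hc, hi⟩ := hK
  refine ENNReal.toReal_pos ?_ hc.measure_lt_top.ne
  exact (Measure.measure_pos_of_nonempty_interior volume hi).ne'

lemma det_cov_nonneg (hK : IsCompact K) : 0 ≤ (covMatrix K).det :=
  (covMatrix_posSemidef hK).det_nonneg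

/-- `D` of the cone measure: nonnegative iff the ratio is at most the one of the simplex
(`det Σ_K > 0` assumed) -/
lemma DNonneg_iff (hK : IsConvexBody K) (hdet : 0 < (covMatrix K).det) :
    DNonneg (coneF K) ↔ (covMatrix K).det / (volume K).toReal ^ 2 ≤
      (covMatrix (stdS n)).det / (volume (stdS n)).toReal ^ 2 := by
  have hV := volume_pos_of_body hK
  have hc := hK.2.1
  have hp : (0 : ℝ) < ((n : ℝ) + 1) * (((n : ℝ) + 1) * (n + 2)) ^ n := by positivity
  have hf : (0 : ℝ) < (n.factorial : ℝ) := by positivity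
  unfold DNonneg
  rw [ent_cone hc hV, det_cov_cone hc hV.ne', ratio_stdS, ← mul_assoc]
  push_cast
  rw [add_le_add_iff_left]
  have e : 1 / 2 * Real.log (((n : ℝ) + 1) * (((n : ℝ) + 1) * (n + 2)) ^ n * (covMatrix K).det) ≤
      Real.log ((n.factorial : ℝ) * (volume K).toReal) ↔
      Real.log (((n : ℝ) + 1) * (((n : ℝ) + 1) * (n + 2)) ^ n * (covMatrix K).det) ≤
      Real.log (((n.factorial : ℝ) * (volume K).toReal) ^ 2) := by
    rw [Real.log_pow]
    push_cast
    constructor <;> intro h <;> linarith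
  rw [e, Real.log_le_log_iff (by positivity) (by positivity), div_le_div_iff₀ (by positivity) hp]
  constructor <;> intro h <;> nlinarith

theorem isoConst_le_of_cone (hn : 1 ≤ n) (hK : IsConvexBody K) {S : Set (Fin n → ℝ)}
    (hS : IsSimplex S) (hD : DNonneg (coneF K)) : isoConst K ≤ isoConst S := by
  rw [isoConst_simplex hS]
  have hr : 0 ≤ (covMatrix K).det / (volume K).toReal ^ 2 :=
    div_nonneg (det_cov_nonneg hK.2.1) (sq_nonneg _)
  have h1 : (covMatrix K).det / (volume K).toReal ^ 2 ≤
      (covMatrix (stdS n)).det / (volume (stdS n)).toReal ^ 2 := by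
    rcases (det_cov_nonneg hK.2.1).eq_or_lt with h0 | h0
    · rw [← h0, zero_div]
      exact div_nonneg (det_cov_nonneg isCompact_stdS) (sq_nonneg _)
    · exact (DNonneg_iff hK h0).1 hD
  exact Real.rpow_le_rpow hr h1 (by positivity)

lemma ratio_pos (n : ℕ) : 0 < (covMatrix (stdS n)).det / (volume (stdS n)).toReal ^ 2 := by
  rw [ratio_stdS]; positivity

/-- in the equality case the cone measure has `D = 0` -/
theorem D_eq_of_isoConst_eq (hn : 1 ≤ n) (hK : IsConvexBody K) {S : Set (Fin n → ℝ)}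
    (hS : IsSimplex S) (he : isoConst K = isoConst S) :
    0 < (covMatrix K).det ∧
    ((n + 1 : ℕ) : ℝ) + 1 / 2 * Real.log (covF (coneF K)).det = entF (coneF K) := by
  rw [isoConst_simplex hS] at he
  have hr : 0 ≤ (covMatrix K).det / (volume K).toReal ^ 2 :=
    div_nonneg (det_cov_nonneg hK.2.1) (sq_nonneg _)
  have hV := volume_pos_of_body hK
  have hn0 : (0 : ℝ) < n := by exact_mod_cast hn
  have h1 : (covMatrix K).det / (volume K).toReal ^ 2 =
      (covMatrix (stdS n)).det / (volume (stdS n)).toReal ^ 2 :=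
    (Real.rpow_left_inj hr (ratio_pos n).le (by positivity)).1 he
  have hd : 0 < (covMatrix K).det := by
    rcases (det_cov_nonneg hK.2.1).eq_or_lt with h0 | h0
    · rw [← h0, zero_div] at h1
      exact absurd h1.symm (ratio_pos n).ne'
    · exact h0
  refine ⟨hd, ?_⟩
  have hp : (0 : ℝ) < ((n : ℝ) + 1) * (((n : ℝ) + 1) * (n + 2)) ^ n := by positivity
  have hf : (0 : ℝ) < (n.factorial : ℝ) := by positivity
  rw [ratio_stdS, div_eq_div_iff (by positivity) hp.ne'] at h1
  rw [ent_cone hK.2.1 hV, det_cov_cone hK.2.1 hV.ne', ← mul_assoc]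
  have e : ((n : ℝ) + 1) * (((n : ℝ) + 1) * (n + 2)) ^ n * (covMatrix K).det =
      ((n.factorial : ℝ) * (volume K).toReal) ^ 2 := by linarith
  rw [e, Real.log_pow]
  push_cast
  ring

end Vale.Agent.P254.K468
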