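import Vale.Agent.P254.Assembly
import Vale.Agent.P254.Criterion

/-!
P254, block (K): from convex bodies in `ℝⁿ` to the cone measure `e^{-t} 1{x ∈ t K}` on `ℝ^{n+1}`.
-/

open MeasureTheory Set Matrix
open scoped Pointwise ENNReal

namespace Vale.Agent.P254.K468

variable {n N : ℕ}

/-- total mass of a density -/
noncomputable def massF (f : (Fin N → ℝ) → ℝ) : ℝ := ∫ y, f y

/-- mean of the probability density `f / ∫ f` -/
noncomputable def meanF (f : (Fin N → ℝ) → ℝ) : Fin N → ℝ :=
  fun i => (∫ y, y i * f y) / massF f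

/-- covariance matrix of the probability density `f / ∫ f` -/
noncomputable def covF (f : (Fin N → ℝ) → ℝ) : Matrix (Fin N) (Fin N) ℝ :=
  fun i j => (∫ y, (y i - meanF f i) * (y j - meanF f j) * f y) / massF f

/-- differential entropy of the probability density `f / ∫ f` -/
noncomputable def entF (f : (Fin N → ℝ) → ℝ) : ℝ :=
  -∫ y, (f y / massF f) * Real.log (f y / massF f)

/-- `D(f) = Ent - ½ log det Cov - N ≥ 0` -/
def DNonneg (f : (Fin N → ℝ) → ℝ) : Prop :=
  (N : ℝ) + 1 / 2 * Real.log (covF f).det ≤ entF f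

open Classical in
/-- the cone density: `e^{-t}` on `{(t, x) : 0 < t, x ∈ t K}`, `t = y 0` -/
noncomputable def coneF (K : Set (Fin n → ℝ)) (y : Fin (n + 1) → ℝ) : ℝ :=
  if 0 < y 0 ∧ (fun i : Fin n => y i.succ) ∈ y 0 • K then Real.exp (-(y 0)) else 0

/-- `Gamma(n+1)` law, unnormalised -/
noncomputable def gamM (n : ℕ) : Measure ℝ :=
  (volume.restrict (Ioi (0 : ℝ))).withDensity fun t => ENNReal.ofReal (t ^ n * Real.exp (-t))

instance : SFinite (gamM n) := by unfold gamM; infer_instance

/-- `(t, u) ↦ (t, t u)` -/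
def conePt (z : ℝ × (Fin n → ℝ)) : Fin (n + 1) → ℝ := Fin.cons z.1 (z.1 • z.2)

lemma measurable_conePt : Measurable (conePt : ℝ × (Fin n → ℝ) → _) := by
  unfold conePt
  rw [measurable_pi_iff]
  intro i
  refine Fin.cases ?_ (fun j => ?_) i
  · simpa using measurable_fst
  · simp only [Fin.cons_succ, Pi.smul_apply, smul_eq_mul]
    exact measurable_fst.mul ((measurable_pi_apply j).comp measurable_snd)

lemma coneF_nonneg (K : Set (Fin n → ℝ)) (y) : 0 ≤ coneF K y := by
  unfold coneF; split_ifs
  · exact (Real.exp_pos _).le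
  · exact le_rfl

/-- the open cone -/
def coneS (K : Set (Fin n → ℝ)) : Set (Fin (n + 1) → ℝ) :=
  {y | 0 < y 0 ∧ (fun i : Fin n => y i.succ) ∈ y 0 • K}

lemma coneS_eq (K : Set (Fin n → ℝ)) : coneS K =
    {y | 0 < y 0} ∩ (fun y : Fin (n + 1) → ℝ => (y 0)⁻¹ • (fun i : Fin n => y i.succ)) ⁻¹' K := by
  ext y
  simp only [coneS, mem_ofPred_eq, mem_inter_iff, mem_preimage]
  refine and_congr_right fun h => ?_
  rw [mem_smul_set_iff_inv_smul_mem₀ h.ne']

lemma measurableSet_coneS {K : Set (Fin n → ℝ)} (hK : MeasurableSet K) :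
    MeasurableSet (coneS K) := by
  rw [coneS_eq]
  refine (measurableSet_lt measurable_const (measurable_pi_apply 0)).inter
    (measurableSet_preimage ?_ hK)
  rw [measurable_pi_iff]
  intro i
  simp only [Pi.smul_apply, smul_eq_mul]
  exact (measurable_pi_apply 0).inv.mul (measurable_pi_apply _)

lemma coneF_eq (K : Set (Fin n → ℝ)) :
    coneF K = (coneS K).indicator fun y => Real.exp (-(y 0)) := by
  ext y
  unfold coneF
  by_cases h : y ∈ coneS K
  · rw [indicator_of_mem h]; exact if_pos h
  · rw [indicator_of_notMem h]; exact if_neg h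

lemma measurable_coneF {K : Set (Fin n → ℝ)} (hK : MeasurableSet K) : Measurable (coneF K) := by
  rw [coneF_eq]
  exact Measurable.indicator (by fun_prop) (measurableSet_coneS hK)

/-- scaling of a set integral -/
lemma lintegral_scale {K : Set (Fin n → ℝ)} (hK : MeasurableSet K)
    {F : (Fin n → ℝ) → ℝ≥0∞} (hF : Measurable F) {t : ℝ} (ht : 0 < t) :
    ∫⁻ x in t • K, F x = ENNReal.ofReal (t ^ n) * ∫⁻ u in K, F (t • u) := by
  have htK : MeasurableSet (t • K) := hK.const_smul_of_ne_zero ht.ne'
  have h1 : ∫⁻ u in K, F (t • u) = ∫⁻ u, (t • K).indicator F (t • u) := by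
    rw [← lintegral_indicator hK]
    refine lintegral_congr fun u => ?_
    by_cases hu : u ∈ K
    · rw [indicator_of_mem hu, indicator_of_mem (smul_mem_smul_set hu)]
    · rw [indicator_of_notMem hu, indicator_of_notMem]
      intro h
      exact hu ((smul_mem_smul_set_iff₀ ht.ne' K u).1 h)
  have h2 := Measure.map_addHaar_smul (volume : Measure (Fin n → ℝ)) ht.ne'
  have h3 : ∫⁻ u, (t • K).indicator F (t • u) =
      ENNReal.ofReal |(t ^ n)⁻¹| * ∫⁻ x, (t • K).indicator F x := by
    rw [← lintegral_map (μ := volume) (hF.indicator htK) (measurable_const_smul t), h2,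
      lintegral_smul_measure]
    simp
  rw [h1, h3, lintegral_indicator htK, ← mul_assoc, abs_of_pos (by positivity),
    ← ENNReal.ofReal_mul (by positivity), mul_inv_cancel₀ (by positivity), ENNReal.ofReal_one,
    one_mul]

lemma lintegral_cone {K : Set (Fin n → ℝ)} (hK : MeasurableSet K)
    {f : (Fin (n + 1) → ℝ) → ℝ≥0∞} (hf : Measurable f) :
    ∫⁻ y, f y * ENNReal.ofReal (coneF K y) =
      ∫⁻ z, f (conePt z) ∂((gamM n).prod (volume.restrict K)) := by
  have hmcons : Measurable fun p : ℝ × (Fin n → ℝ) => (Fin.cons p.1 p.2 : Fin (n + 1) → ℝ) := by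
    rw [measurable_pi_iff]
    intro i
    refine Fin.cases ?_ (fun j => ?_) i
    · simpa using measurable_fst
    · simp only [Fin.cons_succ]
      exact (measurable_pi_apply j).comp measurable_snd
  have hg : Measurable fun y => f y * ENNReal.ofReal (coneF K y) :=
    hf.mul (measurable_coneF hK).ennreal_ofReal
  have e1 : ∫⁻ y, f y * ENNReal.ofReal (coneF K y) =
      ∫⁻ p : ℝ × (Fin n → ℝ), f (Fin.cons p.1 p.2) * ENNReal.ofReal (coneF K (Fin.cons p.1 p.2)) := by
    have h := (volume_preserving_piFinSuccAbove (fun _ : Fin (n + 1) => ℝ) 0).symm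
    rw [← h.lintegral_comp hg]
    refine lintegral_congr fun p => ?_
    have : (MeasurableEquiv.piFinSuccAbove (fun _ : Fin (n + 1) => ℝ) 0).symm p
        = Fin.cons p.1 p.2 := by
      simp [MeasurableEquiv.piFinSuccAbove, Fin.insertNthEquiv]
    rw [this]
  have hG : Measurable fun p : ℝ × (Fin n → ℝ) =>
      f (Fin.cons p.1 p.2) * ENNReal.ofReal (coneF K (Fin.cons p.1 p.2)) := hg.comp hmcons
  have e3 : ∫⁻ p : ℝ × (Fin n → ℝ),
      f (Fin.cons p.1 p.2) * ENNReal.ofReal (coneF K (Fin.cons p.1 p.2)) =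
      ∫⁻ t : ℝ, ∫⁻ x : Fin n → ℝ,
        f (Fin.cons t x) * ENNReal.ofReal (coneF K (Fin.cons t x)) := by
    rw [Measure.volume_eq_prod]
    exact lintegral_prod _ hG.aemeasurable
  have hC : Measurable fun z : ℝ × (Fin n → ℝ) => f (conePt z) := hf.comp measurable_conePt
  have e4 : ∫⁻ z, f (conePt z) ∂((gamM n).prod (volume.restrict K)) =
      ∫⁻ t, (∫⁻ u in K, f (conePt (t, u))) ∂(gamM n) := lintegral_prod _ hC.aemeasurable
  have hin : Measurable fun t : ℝ => ∫⁻ u in K, f (conePt (t, u)) :=
    hC.lintegral_prod_right'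
  have e5 : ∫⁻ t, (∫⁻ u in K, f (conePt (t, u))) ∂(gamM n) =
      ∫⁻ t : ℝ, (Ioi (0 : ℝ)).indicator (fun t => ENNReal.ofReal (t ^ n * Real.exp (-t)) *
        ∫⁻ u in K, f (conePt (t, u))) t := by
    rw [gamM, lintegral_withDensity_eq_lintegral_mul _ (by fun_prop) hin,
      lintegral_indicator measurableSet_Ioi]
    rfl
  rw [e1, e3, e4, e5]
  refine lintegral_congr fun t => ?_
  by_cases ht : 0 < t
  · rw [indicator_of_mem (mem_Ioi.2 ht)]
    have e2 : ∀ x : Fin n → ℝ, f (Fin.cons t x) * ENNReal.ofReal (coneF K (Fin.cons t x)) =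
        ENNReal.ofReal (Real.exp (-t)) * (t • K).indicator (fun x => f (Fin.cons t x)) x := by
      intro x
      unfold coneF
      by_cases hx : x ∈ t • K
      · rw [if_pos ⟨by simpa using ht, by simpa using hx⟩, indicator_of_mem hx, mul_comm]
        simp
      · rw [if_neg (fun h => hx (by simpa using h.2)), indicator_of_notMem hx]
        simp
    simp_rw [e2]
    have hft : Measurable fun x : Fin n → ℝ => f (Fin.cons t x) :=
      hf.comp (hmcons.comp (measurable_const.prodMk measurable_id))
    rw [lintegral_const_mul _ (hft.indicator (hK.const_smul_of_ne_zero ht.ne')),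
      lintegral_indicator (hK.const_smul_of_ne_zero ht.ne'), lintegral_scale hK hft ht,
      ← mul_assoc, ← ENNReal.ofReal_mul (Real.exp_pos _).le]
    simp only [conePt]
    rw [mul_comm (Real.exp (-t))]
  · rw [indicator_of_notMem (fun h => ht (mem_Ioi.1 h))]
    have e2 : ∀ x : Fin n → ℝ, f (Fin.cons t x) * ENNReal.ofReal (coneF K (Fin.cons t x)) = 0 := by
      intro x
      unfold coneF
      rw [if_neg (fun h => ht (by simpa using h.1))]
      simp
    simp [e2]

/-- the cone measure is the image of `Gamma(n+1) ⊗ K` -/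
lemma map_cone {K : Set (Fin n → ℝ)} (hK : MeasurableSet K) :
    ((gamM n).prod (volume.restrict K)).map conePt =
      volume.withDensity fun y => ENNReal.ofReal (coneF K y) := by
  refine Measure.ext_of_lintegral _ fun f hf => ?_
  rw [lintegral_map hf measurable_conePt, lintegral_withDensity_eq_lintegral_mul _
    (measurable_coneF hK).ennreal_ofReal hf, ← lintegral_cone hK hf]
  refine lintegral_congr fun y => ?_
  rw [Pi.mul_apply, mul_comm]

lemma integral_cone {K : Set (Fin n → ℝ)} (hK : MeasurableSet K)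
    {φ : (Fin (n + 1) → ℝ) → ℝ} (hφ : Measurable φ) :
    ∫ y, φ y * coneF K y = ∫ z, φ (conePt z) ∂((gamM n).prod (volume.restrict K)) := by
  have h1 : ∫ z, φ (conePt z) ∂((gamM n).prod (volume.restrict K)) =
      ∫ y, φ y ∂(((gamM n).prod (volume.restrict K)).map conePt) :=
    (integral_map measurable_conePt.aemeasurable hφ.aestronglyMeasurable).symm
  rw [h1, map_cone hK]
  have h2 := integral_withDensity_eq_integral_toReal_smul
    (μ := (volume : Measure (Fin (n + 1) → ℝ))) (f := fun y => ENNReal.ofReal (coneF K y))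
    (measurable_coneF hK).ennreal_ofReal (by simp) φ
  rw [h2]
  refine integral_congr_ae (Filter.Eventually.of_forall fun y => ?_)
  simp only [smul_eq_mul]
  rw [ENNReal.toReal_ofReal (coneF_nonneg K y), mul_comm]

lemma integrable_gam (k : ℕ) : Integrable (fun t : ℝ => t ^ k) (gamM n) := by
  unfold gamM
  rw [integrable_withDensity_iff_integrable_smul' (by fun_prop) (by simp)]
  have h := integrableOn_pow_mul_exp (n + k) (c := 1) one_pos
  refine (h.congr_fun (fun t ht => ?_) measurableSet_Ioi)
  have ht' : 0 < t := ht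
  simp only [smul_eq_mul]
  rw [ENNReal.toReal_ofReal (by positivity)]
  ring_nf

lemma integral_gam (k : ℕ) : ∫ t : ℝ, t ^ k ∂(gamM n) = ((n + k).factorial : ℝ) := by
  unfold gamM
  rw [integral_withDensity_eq_integral_toReal_smul (by fun_prop) (by simp)]
  have h := integral_Ioi_pow_mul_exp (n + k) (c := 1) one_pos
  rw [one_pow, div_one] at h
  rw [← h]
  refine setIntegral_congr_fun measurableSet_Ioi fun t ht => ?_
  have ht' : 0 < t := ht
  simp only [smul_eq_mul]
  rw [ENNReal.toReal_ofReal (by positivity)]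
  ring_nf

lemma integral_prod_gam (K : Set (Fin n → ℝ)) (k : ℕ) (ψ : (Fin n → ℝ) → ℝ) :
    ∫ z : ℝ × (Fin n → ℝ), z.1 ^ k * ψ z.2 ∂((gamM n).prod (volume.restrict K)) =
      ((n + k).factorial : ℝ) * ∫ u in K, ψ u := by
  rw [← integral_gam (n := n) k]
  exact integral_prod_mul (μ := gamM n) (ν := volume.restrict K) (fun t : ℝ => t ^ k) ψ

lemma integrable_cone {K : Set (Fin n → ℝ)} (hK : MeasurableSet K)
    {φ : (Fin (n + 1) → ℝ) → ℝ} (hφ : Measurable φ)
    (hi : Integrable (fun z => φ (conePt z)) ((gamM n).prod (volume.restrict K))) :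
    Integrable fun y => φ y * coneF K y := by
  have h1 : Integrable φ (((gamM n).prod (volume.restrict K)).map conePt) :=
    (integrable_map_measure hφ.aestronglyMeasurable measurable_conePt.aemeasurable).2 hi
  rw [map_cone hK, integrable_withDensity_iff_integrable_smul'
    (measurable_coneF hK).ennreal_ofReal (by simp)] at h1
  refine h1.congr (Filter.Eventually.of_forall fun y => ?_)
  simp only [smul_eq_mul]
  rw [ENNReal.toReal_ofReal (coneF_nonneg K y), mul_comm]

lemma integrable_prod_gam {K : Set (Fin n → ℝ)} (k : ℕ) {ψ : (Fin n → ℝ) → ℝ}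
    (hψ : IntegrableOn ψ K) :
    Integrable (fun z : ℝ × (Fin n → ℝ) => z.1 ^ k * ψ z.2)
      ((gamM n).prod (volume.restrict K)) :=
  (integrable_gam k).mul_prod hψ

/-- the coordinates in terms of `(t, u)` -/
lemma conePt_eq (i : Fin (n + 1)) (z : ℝ × (Fin n → ℝ)) :
    conePt z i = z.1 * (Fin.cons 1 z.2 : Fin (n + 1) → ℝ) i := by
  refine Fin.cases ?_ (fun j => ?_) i
  · simp [conePt]
  · simp [conePt]

lemma cont_cons (i : Fin (n + 1)) :
    Continuous fun u : Fin n → ℝ => (Fin.cons 1 u : Fin (n + 1) → ℝ) i := by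
  refine Fin.cases ?_ (fun j => ?_) i
  · simpa using continuous_const
  · simpa using continuous_apply j

section body

variable {K : Set (Fin n → ℝ)} (hK : IsCompact K)

include hK

lemma mom0 : ∫ y, coneF K y = (n.factorial : ℝ) * (volume K).toReal := by
  have h := integral_cone hK.measurableSet (φ := fun _ => 1) measurable_const
  have h2 := integral_prod_gam K 0 (fun _ => (1 : ℝ))
  simp only [one_mul] at h
  rw [h]
  simp only [pow_zero, one_mul] at h2
  rw [h2]
  simp [Measure.real]

lemma mom_t : ∫ y, y 0 * coneF K y = ((n + 1).factorial : ℝ) * (volume K).toReal := by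
  have h := integral_cone hK.measurableSet (φ := fun y => y 0) (measurable_pi_apply 0)
  have h2 := integral_prod_gam K 1 (fun _ => (1 : ℝ))
  rw [h]
  simp only [pow_one, mul_one] at h2
  have e : ∀ z : ℝ × (Fin n → ℝ), conePt z 0 = z.1 := fun z => rfl
  simp_rw [e]
  rw [h2]
  simp [Measure.real]

lemma mom_x (i : Fin n) :
    ∫ y, y i.succ * coneF K y = ((n + 1).factorial : ℝ) * ∫ u in K, u i := by
  have h := integral_cone hK.measurableSet (φ := fun y => y i.succ) (measurable_pi_apply _)
  have h2 := integral_prod_gam K 1 (fun u : Fin n → ℝ => u i)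
  rw [h]
  simp only [pow_one] at h2
  have e : ∀ z : ℝ × (Fin n → ℝ), conePt z i.succ = z.1 * z.2 i := fun z => rfl
  simp_rw [e]
  rw [h2]

lemma mom_tt : ∫ y, y 0 * y 0 * coneF K y = ((n + 2).factorial : ℝ) * (volume K).toReal := by
  have h := integral_cone hK.measurableSet (φ := fun y => y 0 * y 0)
    ((measurable_pi_apply 0).mul (measurable_pi_apply 0))
  have h2 := integral_prod_gam K 2 (fun _ => (1 : ℝ))
  rw [h]
  simp only [mul_one] at h2
  have e : ∀ z : ℝ × (Fin n → ℝ), conePt z 0 * conePt z 0 = z.1 ^ 2 := by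
    intro z; rw [sq]; rfl
  simp_rw [e]
  rw [h2]
  simp [Measure.real]

lemma mom_tx (i : Fin n) :
    ∫ y, y 0 * y i.succ * coneF K y = ((n + 2).factorial : ℝ) * ∫ u in K, u i := by
  have h := integral_cone hK.measurableSet (φ := fun y => y 0 * y i.succ)
    ((measurable_pi_apply 0).mul (measurable_pi_apply _))
  have h2 := integral_prod_gam K 2 (fun u : Fin n → ℝ => u i)
  rw [h]
  have e : ∀ z : ℝ × (Fin n → ℝ), conePt z 0 * conePt z i.succ = z.1 ^ 2 * z.2 i := by
    intro z
    have : conePt z 0 * conePt z i.succ = z.1 * (z.1 * z.2 i) := rfl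
    rw [this]; ring
  simp_rw [e]
  rw [h2]

lemma mom_xx (i j : Fin n) :
    ∫ y, y i.succ * y j.succ * coneF K y
      = ((n + 2).factorial : ℝ) * ∫ u in K, u i * u j := by
  have h := integral_cone hK.measurableSet (φ := fun y => y i.succ * y j.succ)
    ((measurable_pi_apply _).mul (measurable_pi_apply _))
  have h2 := integral_prod_gam K 2 (fun u : Fin n → ℝ => u i * u j)
  rw [h]
  have e : ∀ z : ℝ × (Fin n → ℝ),
      conePt z i.succ * conePt z j.succ = z.1 ^ 2 * (z.2 i * z.2 j) := by
    intro z
    have : conePt z i.succ * conePt z j.succ = (z.1 * z.2 i) * (z.1 * z.2 j) := rfl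
    rw [this]; ring
  simp_rw [e]
  rw [h2]

lemma int0 : Integrable (coneF K) := by
  have h := integrable_cone hK.measurableSet (φ := fun _ => 1) measurable_const
    (by simpa using integrable_prod_gam (n := n) 0 (intOn hK (continuous_const (y := (1:ℝ)))))
  simpa using h

lemma int1 (i : Fin (n + 1)) : Integrable fun y => y i * coneF K y := by
  refine integrable_cone hK.measurableSet (φ := fun y => y i) (measurable_pi_apply i) ?_
  refine (integrable_prod_gam (n := n) 1 (intOn hK (cont_cons i))).congr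
    (Filter.Eventually.of_forall fun z => ?_)
  simp only [conePt_eq, pow_one]

lemma int2 (i j : Fin (n + 1)) : Integrable fun y => y i * y j * coneF K y := by
  refine integrable_cone hK.measurableSet (φ := fun y => y i * y j)
    ((measurable_pi_apply i).mul (measurable_pi_apply j)) ?_
  refine (integrable_prod_gam (n := n) 2
    (intOn hK ((cont_cons i).mul (cont_cons j)))).congr
    (Filter.Eventually.of_forall fun z => ?_)
  simp only [conePt_eq, Pi.mul_apply]
  ring

lemma covF_cone (i j : Fin (n + 1)) (hZ : massF (coneF K) ≠ 0) :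
    covF (coneF K) i j = (∫ y, y i * y j * coneF K y) / massF (coneF K)
      - meanF (coneF K) i * meanF (coneF K) j := by
  unfold covF
  set mi := meanF (coneF K) i with hmi
  set mj := meanF (coneF K) j with hmj
  have e : ∀ y : Fin (n + 1) → ℝ, (y i - mi) * (y j - mj) * coneF K y =
      (y i * y j * coneF K y - mj * (y i * coneF K y)) - (mi * (y j * coneF K y)
        - mi * mj * coneF K y) := by
    intro y; ring
  simp_rw [e]
  have i1 := (int1 hK i).const_mul mj
  have i2 := (int1 hK j).const_mul mi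
  have i3 := (int0 hK).const_mul (mi * mj)
  have i12 : Integrable fun y : Fin (n + 1) → ℝ => y i * y j * coneF K y - mj * (y i * coneF K y) :=
    (int2 hK i j).sub i1
  have i23 : Integrable fun y : Fin (n + 1) → ℝ => mi * (y j * coneF K y) - mi * mj * coneF K y :=
    i2.sub i3
  rw [integral_sub i12 i23, integral_sub (int2 hK i j) i1,
    integral_sub i2 i3, integral_const_mul, integral_const_mul, integral_const_mul]
  have e1 : ∫ y, y i * coneF K y = mi * massF (coneF K) := by
    rw [hmi, meanF, div_mul_cancel₀ _ hZ]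
  have e2 : ∫ y, y j * coneF K y = mj * massF (coneF K) := by
    rw [hmj, meanF, div_mul_cancel₀ _ hZ]
  have e3 : ∫ y, coneF K y = massF (coneF K) := rfl
  rw [e1, e2, e3]
  field_simp
  ring

end body

end Vale.Agent.P254.K468
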